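import Vale.Agent.P269.G2.XSpec

/-!
# Rows Yi and Yj: the characteristic polynomial of the Euler field kills `de` and its derivative
-/

namespace Vale.Agent.P269.G2.H52

open Finset.HasAntidiagonal (antidiagonal)
open Polynomial (aeval)
open Vale.Agent.P269.CI
open Vale.Agent.P269.G1 (Frob)
open Vale.Agent.P269.G2

section gen

variable {R A O : Type*} [CommRing R] [Algebra ℚ R] [CommRing A] [Algebra R A]
    [Ring O] [Algebra R O] (S : Frob R A O)

theorem sum_pow (P : Polynomial R) (hP : aeval S.E P = 0) (j : ℕ) :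
    P.sum (fun n c => c • S.E ^ (n + j)) = 0 := by
  have h : aeval S.E P * S.E ^ j = 0 := by rw [hP, zero_mul]
  rw [Polynomial.aeval_eq_sum_range, Finset.sum_mul] at h
  rw [Polynomial.sum_over_range P (f := fun n c => c • S.E ^ (n + j)) fun n => zero_smul _ _, ← h]
  exact Finset.sum_congr rfl fun n _ => by rw [pow_add, smul_mul_assoc]

theorem de_poly (P : Polynomial R) (hP : aeval S.E P = 0)
    (hΛ : P.sum (fun n c => c • S.psi n) = 0) (hφ : P.sum (fun n c => c • S.phi n) = 0) (j : ℕ) :
    P.sum (fun n c => c * S.de (n + j)) = 0 := by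
  have h1 := congrArg S.G (sum_pow S P hP j)
  have h2 := S.om_poly P hP hΛ hφ j
  rw [Polynomial.sum_def] at h1 h2 ⊢
  rw [map_zero, map_sum] at h1
  have h3 : ∀ n ∈ P.support, P.coeff n * S.de (n + j) =
      S.G (P.coeff n • S.E ^ (n + j)) - P.coeff n * S.om (n + j) := by
    intro n _
    rw [map_smul, smul_eq_mul, Frob.de]
    ring
  rw [Finset.sum_congr rfl h3, Finset.sum_sub_distrib, h1, h2, sub_zero]

theorem om_zero : S.om 0 = 0 := by
  rw [Frob.om]
  simp

theorem de_zero : S.de 0 = 0 := by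
  rw [Frob.de, pow_zero, S.G_one, om_zero, sub_zero]

theorem deriv_poly (P : Polynomial R) (hd : ∀ j, P.sum (fun n c => c * S.de (n + j)) = 0)
    (a : ℕ → R) (ha0 : ∀ j, P.sum (fun n c => c * a (n + j)) = 0)
    (ha : ∀ n, 2 * S.de (n + 1) = ((n : R) + 1) * a n) (j : ℕ) :
    P.sum (fun n c => c * ((n : R) * a (n - 1 + j))) = 0 := by
  have h1 : (2 : R) * P.sum (fun n c => c * S.de (n + j)) = 0 := by rw [hd, mul_zero]
  rw [Polynomial.sum_def, Finset.mul_sum] at h1
  rcases Nat.eq_zero_or_pos j with hj | hj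
  · subst hj
    rw [Polynomial.sum_def, ← h1]
    refine Finset.sum_congr rfl fun n _ => ?_
    rcases Nat.eq_zero_or_pos n with hn | hn
    · subst hn
      rw [Nat.cast_zero, zero_mul, mul_zero, zero_add, de_zero, mul_zero, mul_zero]
    · obtain ⟨m, rfl⟩ : ∃ m, n = m + 1 := ⟨n - 1, by omega⟩
      have h2 := ha m
      rw [Nat.add_sub_cancel, add_zero, add_zero]
      push_cast
      rw [← h2]
      ring
  · obtain ⟨i, rfl⟩ : ∃ i, j = i + 1 := ⟨j - 1, by omega⟩
    have h0 := ha0 i
    rw [Polynomial.sum_def] at h0 ⊢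
    have h3 : ∀ n ∈ P.support, 2 * (P.coeff n * S.de (n + (i + 1))) =
        P.coeff n * ((n : R) * a (n - 1 + (i + 1))) + ((i : R) + 1) * (P.coeff n * a (n + i)) := by
      intro n _
      have h2 := ha (n + i)
      have h4 : (n : R) * a (n - 1 + (i + 1)) = (n : R) * a (n + i) := by
        rcases Nat.eq_zero_or_pos n with hn | hn
        · subst hn
          rw [Nat.cast_zero, zero_mul, zero_mul]
        · rw [show n - 1 + (i + 1) = n + i by omega]
      rw [h4, show n + (i + 1) = n + i + 1 by omega]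
      push_cast at h2
      linear_combination (P.coeff n) * h2
    rw [Finset.sum_congr rfl h3, Finset.sum_add_distrib, ← Finset.mul_sum, h0, mul_zero,
      add_zero] at h1
    exact h1

end gen

variable {X : CompleteIntersection} {F : ℕ → ℕ → List (Ins X) → ℂ}

/-- **[Yi]** from `om_poly` -/
theorem chi_de (hF : IsGW X F) (he : Even X.dim) (j : ℕ) :
    (chi hF he).sum (fun n c => c * (frob hF he).de (n + j)) = 0 :=
  de_poly (frob hF he) (chi hF he) (aeval_chi hF he) (chi_psi hF he) (chi_phi hF he) j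

/-- **[Yj]** -/
theorem chi_deriv (hF : IsGW X F) (he : Even X.dim) (a : ℕ → RM X)
    (ha0 : ∀ j, (chi hF he).sum (fun n c => c * a (n + j)) = 0)
    (ha : ∀ n, 2 * (frob hF he).de (n + 1) = ((n : RM X) + 1) * a n) (j : ℕ) :
    (chi hF he).sum (fun n c => c * ((n : RM X) * a (n - 1 + j))) = 0 :=
  deriv_poly (frob hF he) (chi hF he) (G2.chi_de hF he) a ha0 ha j

end Vale.Agent.P269.G2.H52
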